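import Vale.Agent.P234.Main

open scoped Manifold ContDiff
open Vale.Agent.P255 Vale.Agent.P234

theorem Vale.Agent.Results.P234.Villani.result (E : Type) [NormedAddCommGroup E] [NormedSpace ℝ E]
    [FiniteDimensional ℝ E] (M : Type) [MetricSpace M] [CompactSpace M] [ConnectedSpace M]
    [ChartedSpace E M] [IsManifold 𝓘(ℝ, E) ∞ M] (g : RMetric E M) (hd : IsGeodesicDist g) :
    (∀ (x : M) (v : E) (γ : ℝ → M),
      IsGeoFrom (E := E) g.inner x v γ ↔ γ = geo (E := E) g.inner x v) ∧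
    (WeakMTW (E := E) g.inner → ∀ x : M, Convex ℝ (Inj (E := E) g.inner x)) :=
  ⟨(rm_of_metric g hd).geo_iff, (main g hd).2⟩
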